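import Mathlib
import Vale.Agent.Lib.P086.Defs
import Vale.Agent.Lib.P086.GroupVN

set_option autoImplicit false

namespace Vale.Agent.Results.P086.WeightedL1

open Vale.Agent.P086

/-- Let `m` be finite and let `κ` be an arbitrary set of free generators. If
`θ : L(F_m) → L(F_κ)` is a trace preserving `*`-isomorphism such that for every free generator
`u_i` of `F_m` the Fourier coefficients of `θ(u_i)` satisfy `∑_h |h| |θ(u_i)^(h)| < ∞`,
then `κ` has exactly `m` elements. -/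
theorem result (m : ℕ) (κ : Type*) [DecidableEq κ]
    {H₁ H₂ : Type*} [NormedAddCommGroup H₁] [InnerProductSpace ℂ H₁] [CompleteSpace H₁]
    [NormedAddCommGroup H₂] [InnerProductSpace ℂ H₂] [CompleteSpace H₂]
    (δ₁ : HilbertBasis (FreeGroup (Fin m)) ℂ H₁) (δ₂ : HilbertBasis (FreeGroup κ) ℂ H₂)
    (θ : LG δ₁ ≃⋆ₐ[ℂ] LG δ₂)
    (hτ : ∀ x : LG δ₁, inner ℂ (δ₂ 1) ((θ x : H₂ →L[ℂ] H₂) (δ₂ 1)) =
      inner ℂ (δ₁ 1) ((x : H₁ →L[ℂ] H₁) (δ₁ 1)))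
    (hreg : ∀ (i : Fin m) (x : LG δ₁),
      (∀ g, (x : H₁ →L[ℂ] H₁) (δ₁ g) = δ₁ (FreeGroup.of i * g)) →
      Summable fun h : FreeGroup κ => (h.norm : ℝ) *
        ‖inner ℂ (δ₂ h) ((θ x : H₂ →L[ℂ] H₂) (δ₂ 1))‖) :
    Nonempty (Fin m ≃ κ) :=
  main_tracial θ hτ hreg

end Vale.Agent.Results.P086.WeightedL1
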