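import Vale.Agent.Lib.P086.CommonBridge

set_option autoImplicit false

namespace Vale.Agent.Results.P086.WildGenerators

open Vale.Agent.P086.Common

/-- A trace preserving isomorphism `L(F_ι) ≅ L(F_κ)`, in standard form: both free groups act on the
same Hilbert space by their left regular representations with the same trace vector `Ω` and generate
the same von Neumann algebra.  If `ι` is finite and `κ` has a different cardinality, then some free
generator of `F_ι` has Fourier coefficients in `F_κ` with `∑_h |h| |c(h)| = ∞`. -/
theorem result (ι κ : Type) [DecidableEq κ] [Finite ι] (hcard : ENat.card ι ≠ ENat.card κ)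
    (H : Type) [NormedAddCommGroup H] [InnerProductSpace ℂ H] [CompleteSpace H] (Ω : H)
    (u : FreeGroup ι →* unitary (H →L[ℂ] H)) (v : FreeGroup κ →* unitary (H →L[ℂ] H))
    (hu : IsRegular u Ω) (hv : IsRegular v Ω) (huv : vN u = vN v) :
    ∃ i : ι, wsum v Ω (u (FreeGroup.of i)) = ⊤ := by
  classical
  by_contra hcon
  push Not at hcon
  obtain ⟨e⟩ := main u v Ω hu hv huv hcon
  exact hcard (ENat.card_congr e)

end Vale.Agent.Results.P086.WildGenerators
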